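import Vale.Agent.P338.Model

/-! Machines that transpose rectangular binary matrices. -/

namespace Vale.Agent.P338

/-- The input word of a transposition machine for rectangular matrices: the rows, each followed by
the separator. -/
def rectInput {r c : ℕ} (M : Matrix (Fin r) (Fin c) Bool) : List Sym :=
  (List.ofFn fun i => (List.ofFn fun j => Sym.bit (M i j)) ++ [Sym.sep]).flatten

/-- The machine transposes binary matrices: for all `r, c ≥ 1`, on input the rows of an `r × c`
binary matrix, each followed by the separator, it halts with the entries of the transposed matrix
in row-major order on its output tape. -/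
def Machine.TransposesRect (B : Machine) : Prop :=
  ∀ r c : ℕ, 1 ≤ r → 1 ≤ c → ∀ M : Matrix (Fin r) (Fin c) Bool, ∃ t,
    B.HaltsWith (rectInput M) t (rowMajor M.transpose)

/-- Worst-case running time of such a machine on `r × c` binary matrices. -/
noncomputable def Machine.rectTime (B : Machine) (r c : ℕ) : ℕ :=
  Finset.univ.sup fun M : Matrix (Fin r) (Fin c) Bool => B.time (rectInput M)

end Vale.Agent.P338
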