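import Vale.Agent.P338.MathlibUsed

/-! The deterministic multitape Turing machine model of problem P338, the machines that multiply and
the machines that transpose square binary matrices, and their worst-case running times. -/

namespace Vale.Agent.P338

/-- Input symbols: a bit, or the separator written as a hash in the problem. -/
inductive Sym where
  | bit (b : Bool)
  | sep
  deriving DecidableEq

/-- The content of a tape cell: blank, an input symbol, or one of finitely many further symbols. -/
inductive Cell (X : Type) where
  | blank
  | sym (a : Sym)
  | ext (x : X)

/-- Head movements. -/
inductive Dir where
  | left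
  | stay
  | right

/-- The effect of a head movement on the head position; the tape is infinite to the right only and
a head on the leftmost cell that is told to move left stays there. -/
def Dir.move : Dir → ℕ → ℕ
  | .left, p => p - 1
  | .stay, p => p
  | .right, p => p + 1

/-- A deterministic multitape Turing machine: finitely many tapes, a finite alphabet and finitely
many states.  `step` reads the state and the scanned symbols and gives the new state and, for every
tape, the symbol written and the head movement; the machine halts when `step` gives `none`. -/
structure Machine where
  Tape : Type
  Ext : Type
  State : Type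
  finTape : Finite Tape
  finExt : Finite Ext
  finState : Finite State
  inTape : Tape
  outTape : Tape
  start : State
  step : State → (Tape → Cell Ext) → Option (State × (Tape → Cell Ext × Dir))

/-- A configuration: state, head positions and tape contents. -/
structure Machine.Cfg (M : Machine) where
  state : M.State
  head : M.Tape → ℕ
  cont : M.Tape → ℕ → Cell M.Ext

/-- One step of computation; `none` if the machine has halted. -/
def Machine.next (M : Machine) (c : M.Cfg) : Option M.Cfg :=
  (M.step c.state fun i => c.cont i (c.head i)).map fun a =>
    { state := a.1
      head := fun i => (a.2 i).2.move (c.head i)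
      cont := fun i p => if p = c.head i then (a.2 i).1 else c.cont i p }

/-- The content of a tape that holds the word `w` from its leftmost cell on and blanks after it. -/
def tapeOf {X : Type} (w : List Sym) (p : ℕ) : Cell X :=
  match w[p]? with
  | some a => .sym a
  | none => .blank

open Classical in
/-- The start configuration on input `w`: the input is on the first tape, all other tapes are blank
and all heads are on the leftmost cell. -/
noncomputable def Machine.init (M : Machine) (w : List Sym) : M.Cfg where
  state := M.start
  head := fun _ => 0
  cont := fun i => if i = M.inTape then tapeOf w else fun _ => .blank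

/-- `M.Steps t c c'`: the machine goes from `c` to `c'` in exactly `t` steps. -/
inductive Machine.Steps (M : Machine) : ℕ → M.Cfg → M.Cfg → Prop
  | refl (c : M.Cfg) : M.Steps 0 c c
  | tail {t : ℕ} {c c' c'' : M.Cfg} : M.Steps t c c' → M.next c' = some c'' → M.Steps (t + 1) c c''

/-- On input `w` the machine halts after exactly `t` steps. -/
def Machine.HaltsIn (M : Machine) (w : List Sym) (t : ℕ) : Prop :=
  ∃ c, M.Steps t (M.init w) c ∧ M.next c = none

/-- On input `w` the machine halts after exactly `t` steps, with the word `o` written on its output
tape from the leftmost cell on, the rest of that tape being blank. -/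
def Machine.HaltsWith (M : Machine) (w : List Sym) (t : ℕ) (o : List Bool) : Prop :=
  ∃ c, M.Steps t (M.init w) c ∧ M.next c = none ∧ c.cont M.outTape = tapeOf (o.map .bit)

/-- The number of steps the machine makes on input `w` before it halts. -/
noncomputable def Machine.time (M : Machine) (w : List Sym) : ℕ :=
  sInf {t | M.HaltsIn w t}

/-- The value of a bit string, leftmost bit most significant. -/
def val (x : List Bool) : ℕ :=
  x.foldl (fun a b => 2 * a + b.toNat) 0

/-- The `k`-bit binary representation of `z`, most significant bit first. -/
def bin (k z : ℕ) : List Bool :=
  List.ofFn fun i : Fin k => z.testBit (k - 1 - i)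

/-- The input word `x#y` of a multiplication machine. -/
def mulInput {n : ℕ} (x y : Fin n → Bool) : List Sym :=
  (List.ofFn x).map .bit ++ [.sep] ++ (List.ofFn y).map .bit

/-- The machine multiplies: for all `n ≥ 1` and `x, y ∈ {0,1}^n`, on input `x#y` it halts with the
`2n`-bit representation of the product on its output tape. -/
def Machine.Multiplies (A : Machine) : Prop :=
  ∀ n : ℕ, 1 ≤ n → ∀ x y : Fin n → Bool, ∃ t,
    A.HaltsWith (mulInput x y) t (bin (2 * n) (val (List.ofFn x) * val (List.ofFn y)))

/-- Worst-case running time `T_A(n)` of a multiplication machine on two `n`-bit numbers. -/
noncomputable def Machine.mulTime (A : Machine) (n : ℕ) : ℕ :=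
  Finset.univ.sup fun p : (Fin n → Bool) × (Fin n → Bool) => A.time (mulInput p.1 p.2)

/-- The entries of an `r × c` binary matrix in row-major order. -/
def rowMajor {r c : ℕ} (M : Matrix (Fin r) (Fin c) Bool) : List Bool :=
  (List.ofFn fun i => List.ofFn fun j => M i j).flatten

/-- The machine transposes square binary matrices: for all `n ≥ 1`, on input the `n^2` entries of an
`n × n` binary matrix in row-major order it halts with the entries of the transposed matrix in
row-major order on its output tape. -/
def Machine.Transposes (B : Machine) : Prop :=
  ∀ n : ℕ, 1 ≤ n → ∀ M : Matrix (Fin n) (Fin n) Bool, ∃ t,
    B.HaltsWith ((rowMajor M).map .bit) t (rowMajor M.transpose)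

/-- Worst-case running time of a transposition machine on `n × n` binary matrices. -/
noncomputable def Machine.transTime (B : Machine) (n : ℕ) : ℕ :=
  Finset.univ.sup fun M : Matrix (Fin n) (Fin n) Bool => B.time ((rowMajor M).map .bit)

end Vale.Agent.P338
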